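import Vale.Agent.P088.R2.H724.B1.Fam
import Vale.Agent.P088.R2.H606.EP.Prf
import Vale.Agent.P088.R2.H464.B.Hyf
import Vale.Agent.P088.R2.H696.B1.Pt

/-!
# P088, zone B1: the weight inputs of helper464's `Hq` on helper724's family
-/

open Set Filter
open scoped ContDiff Topology

noncomputable section

set_option linter.unusedSectionVars false

namespace Vale.Agent.P088.R2.H968.B1

open Vale.Agent.P088.LR Vale.Agent.P088.HY
open Vale.Agent.P088.R2.H31.EP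
open Vale.Agent.P088.R2.H464.Cu (mid dif)
open Vale.Agent.P088.R2.H464.B (Ge Hy Sz Cn)
open Vale.Agent.P088.R2.H961.F
open Vale.Agent.P088.R2.H724.B1
open Vale.Agent.P088.R2.H238.C (Gz Th Te)
open Vale.Agent.P088.R2.H696.B1 (TB PB pB NuB)

variable {n : ℕ}

/-! ## Chains of iterated derivatives -/

theorem it_sm {f : ℝ → ℝ} (h : ContDiff ℝ ∞ f) (k : ℕ) : ContDiff ℝ ∞ (iteratedDeriv k f) := by
  induction k with
  | zero => rw [iteratedDeriv_zero]; exact h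
  | succ k ih => rw [iteratedDeriv_succ]; exact (contDiff_infty_iff_deriv.1 ih).2

/-- Iterated derivatives of a smooth family of functions of one variable. -/
theorem cn_it {α : Type*} {f : α → ℝ → ℝ} (h : ∀ x, ContDiff ℝ ∞ (f x)) :
    Cn fun k x => iteratedDeriv k (f x) where
  sm k x := it_sm (h x) k
  dv k x t := by
    rw [iteratedDeriv_succ]
    exact ((it_sm (h x) k).differentiable (by simp) t).hasDerivAt

/-! ## The profile -/

theorem prS1_zero {e₁ : ℝ} (he : 0 < e₁) : H606.EP.prS₁ e₁ 0 = 1 / 2 := by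
  have h1 : H606.EP.prS₁ e₁ 0 = H644.Fs1 (2 ^ 2) 0 :=
    (H606.EP.pp_ok he).Ph1_eq (s := 0) (by unfold rp; norm_num)
  rw [h1]
  unfold H644.Fs1
  rw [mul_zero, H644.St_zero_arg]
  norm_num

theorem prS_zero1 {e₁ : ℝ} (he : 0 < e₁) : iteratedDeriv 1 (prS e₁) 0 = 1 / 2 := by
  rw [iteratedDeriv_one, (H606.EP.prS_d1 he 0).deriv]
  exact prS1_zero he

theorem Fs_sm : ContDiff ℝ ∞ (H644.Fs (2 ^ 2)) := by
  unfold H644.Fs
  exact contDiff_id.mul ((H644.contDiff_St 2).comp (contDiff_const.mul contDiff_id))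

/-- The derivatives of the profile on `[0, 1]`: bounds which do not depend on `e₁`. -/
theorem prS_bd (k : ℕ) : ∃ C, 0 ≤ C ∧ ∀ e₁ : ℝ, 0 < e₁ → ∀ s ∈ Icc (0 : ℝ) 1,
    |iteratedDeriv k (prS e₁) s| ≤ C := by
  obtain ⟨C, hC⟩ := (isCompact_Icc (a := (0 : ℝ)) (b := 1)).exists_bound_of_continuousOn
    (it_sm Fs_sm k).continuous.continuousOn
  refine ⟨|C|, abs_nonneg C, fun e₁ he s hs => ?_⟩
  have h1 : prS e₁ =ᶠ[𝓝 s] H644.Fs (2 ^ 2) := by
    filter_upwards [Iio_mem_nhds (show s < rp ^ 2 by unfold rp; linarith [hs.2])] with t ht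
    exact (H606.EP.pp_ok he).Ph_eq (le_of_lt ht)
  rw [h1.iteratedDeriv_eq]
  have h2 := hC s hs
  rw [Real.norm_eq_abs] at h2
  exact h2.trans (le_abs_self C)

/-! ## The inputs -/

variable {A : ℝ} {T : Cst → ℝ → Prop}

/-- The level, twice the corrected level, the slope and the profile of the family. -/
def xL (x : Ix n A T) : V n → ℝ := x.d.l
def xLm (x : Ix n A T) (w : V n) : ℝ := 2 * ff x.q x.d w
def xF (k : ℕ) (x : Ix n A T) : ℝ → ℝ := iteratedDeriv k x.d.Φ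
def xS (k : ℕ) (x : Ix n A T) : ℝ → ℝ := iteratedDeriv k (prS x.q.e₁)

/-- The metric of the family. -/
def xg (x : Ix n A T) : MF n := gi x.d.s₁

theorem Z_Gz (x : Ix n A T) {z : VV n} (hz : z ∈ x.Z) : z ∈ Gz x.q x.d := hz.1.1

theorem Z_cub (x : Ix n A T) {z : VV n} (hz : z ∈ x.Z) : mid z ∈ Cub A x.p := hz.2

/-- `u`. -/
theorem xu (x : Ix n A T) {z : VV n} (hz : z ∈ x.Z) :
    xLm x ((1 / 2 : ℝ) • (z.1 + z.2)) + (xL x z.1 + xL x z.2 -
      2 * xL x ((1 / 2 : ℝ) • (z.1 + z.2))) = x.d.u x.q z := by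
  rw [H238.C.u_Gz x.ok (Z_Gz x hz)]
  have h2 : (1 / 2 : ℝ) • (z.1 + z.2) = mid z := rfl
  rw [h2]
  unfold xLm xL ff
  ring

/-- `ρ²`. -/
theorem xρ (x : Ix n A T) (z : VV n) : ∑ k, ∑ l, xg x ((1 / 2 : ℝ) • (z.1 + z.2)) k l *
    (z.1 k - z.2 k) * (z.1 l - z.2 l) = x.d.r2 z := (H238.C.r2_eq z).symm

/-- The second difference is small and nonnegative. -/
theorem xv (x : Ix n A T) {e : Cst → ℝ} (hT : TB n e x.q) {z : VV n} (hz : z ∈ x.Z) :
    0 ≤ xL x z.1 + xL x z.2 - 2 * xL x ((1 / 2 : ℝ) • (z.1 + z.2)) ∧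
    xL x z.1 + xL x z.2 - 2 * xL x ((1 / 2 : ℝ) • (z.1 + z.2)) ≤ 1 / 1000000 := by
  have hp := pB x.ok hT (z := z) hz.1
  have h1 := xu x hz
  have h2 : xLm x ((1 / 2 : ℝ) • (z.1 + z.2)) = H696.B1.vB x.q x.d z := rfl
  rw [h2] at h1
  have := hp.v1
  have := hp.v2
  constructor <;> linarith

theorem xcF : Cn (xF (n := n) (A := A) (T := T)) := cn_it fun x => x.ok.top.sm

theorem xcS (h : ∀ x : Ix n A T, 0 < x.q.e₁) : Cn (xS (n := n) (A := A) (T := T)) :=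
  cn_it fun x => H606.EP.prS_sm (h x)

theorem xS0 (x : Ix n A T) : xS 0 x 0 = 0 := by
  unfold xS
  rw [iteratedDeriv_zero]
  unfold prS H644.Ph H644.Fs
  simp

theorem xS1 (h : ∀ x : Ix n A T, 0 < x.q.e₁) (x : Ix n A T) : xS 1 x 0 = 1 / 2 :=
  prS_zero1 (h x)

/-- `hS`. -/
theorem xhS (h : ∀ x : Ix n A T, 0 < x.q.e₁) (m : ℕ) : ∃ C, ∀ x : Ix n A T, ∀ z ∈ x.Z,
    ∀ s ∈ Icc (0 : ℝ) 1, |xS m x (s * ∑ k, ∑ l, xg x ((1 / 2 : ℝ) • (z.1 + z.2)) k l *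
      (z.1 k - z.2 k) * (z.1 l - z.2 l))| ≤ C := by
  obtain ⟨C, -, hC⟩ := prS_bd m
  refine ⟨C, fun x z hz s hs => hC _ (h x) _ ?_⟩
  rw [xρ]
  have h1 : x.d.r2 z < 1 := (Z_Gz x hz).2.2.2
  have h2 : 0 ≤ x.d.r2 z := by
    have h3 := H238.C.r2_ge x.ok x.th x.te z
    have h4 : 0 ≤ HY.sq (z.1 - z.2) := Finset.sum_nonneg fun i _ => sq_nonneg _
    linarith
  constructor
  · exact mul_nonneg hs.1 h2
  · calc s * x.d.r2 z ≤ 1 * x.d.r2 z := mul_le_mul_of_nonneg_right hs.2 h2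
      _ ≤ 1 := by linarith

/-- `he`. -/
theorem xhe (x : Ix n A T) {z : VV n} (hz : z ∈ x.Z) : Real.log x.c.E₀ +
    2 * x.c.l ((1 / 2 : ℝ) • (z.1 + z.2)) = xLm x ((1 / 2 : ℝ) • (z.1 + z.2)) := by
  have h2 : (1 / 2 : ℝ) • (z.1 + z.2) = mid z := rfl
  rw [h2, x.fr.e, Real.log_one, zero_add, x.fr.l (mid z) (Z_cub x hz)]
  rfl

/-- `eW`. -/
theorem xeW (x : Ix n A T) : ∃ b, ∀ z ∈ x.Z, x.W z =
    xF 0 x (xLm x ((1 / 2 : ℝ) • (z.1 + z.2)) + (xL x z.1 + xL x z.2 -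
      2 * xL x ((1 / 2 : ℝ) • (z.1 + z.2)))) +
    Real.exp (xLm x ((1 / 2 : ℝ) • (z.1 + z.2)) + (xL x z.1 + xL x z.2 -
      2 * xL x ((1 / 2 : ℝ) • (z.1 + z.2)))) *
    xS 0 x (∑ k, ∑ l, xg x ((1 / 2 : ℝ) • (z.1 + z.2)) k l * (z.1 k - z.2 k) *
      (z.1 l - z.2 l)) + b := by
  refine ⟨0, fun z hz => ?_⟩
  rw [xu x hz, xρ, add_zero]
  show x.d.W x.q z = _
  rw [H238.C.W_Gz x.ok x.th x.te (Z_Gz x hz)]
  unfold xF xS
  rw [iteratedDeriv_zero, iteratedDeriv_zero]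

/-- `eφ`. -/
theorem xeφ (x : Ix n A T) : ∃ b, ∀ z ∈ x.Z, x.c.φ ((1 / 2 : ℝ) • (z.1 + z.2)) =
    xF 0 x (xLm x ((1 / 2 : ℝ) • (z.1 + z.2))) + b := by
  refine ⟨0, fun z hz => ?_⟩
  have h2 : (1 / 2 : ℝ) • (z.1 + z.2) = mid z := rfl
  rw [h2, x.fr.φ (mid z) (Z_cub x hz), add_zero]
  unfold xF xLm
  rw [iteratedDeriv_zero]

/-! ## The slope -/

/-- Growth of the slope below `uta`. -/
theorem slope_up {q : Cst} {d : Pk n} (h : PkOk q d) {v w : ℝ} (hvw : v ≤ w) (hw : w ≤ d.uta q) :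
    deriv d.Φ w ≤ Real.exp (41 / 20 * (w - v)) * deriv d.Φ v := by
  have hs : ContDiff ℝ ∞ (deriv d.Φ) := (contDiff_infty_iff_deriv.1 h.top.sm).2
  have h1 : AntitoneOn (fun t => Real.exp (-(41 / 20 * t)) * deriv d.Φ t) (Iic (d.uta q)) := by
    refine antitoneOn_of_deriv_nonpos (convex_Iic _) ?_ ?_ ?_
    · exact ((Real.continuous_exp.comp (continuous_const.mul continuous_id).neg).mul
        hs.continuous).continuousOn
    · intro t _
      exact (((((hasDerivAt_id t).const_mul (41 / 20 : ℝ)).neg).exp).mul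
        ((hs.differentiable (by simp) t).hasDerivAt)).differentiableAt.differentiableWithinAt
    · intro t ht
      rw [interior_Iic] at ht
      have h2 : HasDerivAt (fun t => Real.exp (-(41 / 20 * t)) * deriv d.Φ t)
          (Real.exp (-(41 / 20 * t)) * -(41 / 20 * 1) * deriv d.Φ t +
            Real.exp (-(41 / 20 * t)) * deriv (deriv d.Φ) t) t :=
        (((hasDerivAt_id t).const_mul (41 / 20 : ℝ)).neg.exp).mul
          ((hs.differentiable (by simp) t).hasDerivAt)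
      rw [h2.deriv]
      have h3 := h.top.k1 t (le_of_lt ht)
      have h4 := Real.exp_pos (-(41 / 20 * t))
      nlinarith
  have h2 := h1 (hvw.trans hw) hw hvw
  simp only at h2
  have h3 : Real.exp (41 / 20 * w) * (Real.exp (-(41 / 20 * w)) * deriv d.Φ w) = deriv d.Φ w := by
    rw [← mul_assoc, ← Real.exp_add]; simp
  rw [← h3]
  refine (mul_le_mul_of_nonneg_left h2 (Real.exp_pos _).le).trans (le_of_eq ?_)
  rw [← mul_assoc, ← Real.exp_add]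
  congr 2; ring

/-- The constant of `hF`. -/
def cFm (Ct : ℕ → ℝ) : ℕ → ℝ
  | 0 => 2
  | m + 1 => 5 * |Ct m|

/-- **`hF`**, with constants which depend on `ph.Ct` only. -/
theorem xhF' (x : Ix n A T) {e : Cst → ℝ} (hT : TB n e x.q) (m : ℕ) {z : VV n} (hz : z ∈ x.Z)
    {s : ℝ} (hs : s ∈ Icc (0 : ℝ) 1) :
    |xF (m + 1) x (xLm x ((1 / 2 : ℝ) • (z.1 + z.2)) + s * (xL x z.1 + xL x z.2 -
      2 * xL x ((1 / 2 : ℝ) • (z.1 + z.2))))| ≤
      cFm x.q.ph.Ct m * deriv x.d.Φ (2 * ff x.q x.d (mid z)) := by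
  obtain ⟨v0, v1⟩ := xv x hT hz
  have hp := pB x.ok hT (z := z) hz.1
  have hu := xu x hz
  set v := xLm x ((1 / 2 : ℝ) • (z.1 + z.2)) with hv
  set y := xL x z.1 + xL x z.2 - 2 * xL x ((1 / 2 : ℝ) • (z.1 + z.2)) with hy
  have hv' : 2 * ff x.q x.d (mid z) = v := rfl
  have sy0 : 0 ≤ s * y := mul_nonneg hs.1 v0
  have sy1 : s * y ≤ y := mul_le_of_le_one_left v0 hs.2
  have hta : v + s * y ≤ x.d.uta x.q := by
    have := hp.nu.ta
    linarith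
  have hN0 : 0 < deriv x.d.Φ v := H238.C.N_pos x.ok x.th _
  have h1 := slope_up x.ok (v := v) (w := v + s * y) (by linarith) hta
  have h2 : Real.exp (41 / 20 * (v + s * y - v)) ≤ 2 := by
    have h3 : 41 / 20 * (v + s * y - v) ≤ 1 / 100 := by linarith
    refine (Real.exp_le_exp.2 h3).trans ?_
    have h4 := Real.exp_bound_div_one_sub_of_interval (x := 1 / 100) (by norm_num) (by norm_num)
    linarith [h4]
  have h3 : deriv x.d.Φ (v + s * y) ≤ 2 * deriv x.d.Φ v :=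
    h1.trans (mul_le_mul_of_nonneg_right h2 hN0.le)
  rw [hv']
  match m with
  | 0 =>
    show |iteratedDeriv 1 x.d.Φ (v + s * y)| ≤ 2 * deriv x.d.Φ v
    rw [iteratedDeriv_one, abs_of_pos (H238.C.N_pos x.ok x.th _)]
    exact h3
  | m + 1 =>
    show |iteratedDeriv (m + 2) x.d.Φ (v + s * y)| ≤ 5 * |x.q.ph.Ct m| * deriv x.d.Φ v
    have h4 := x.ok.top.kd m _ hta
    have h5 := x.ok.top.k1 _ hta
    have h6 := (x.ok.top.k0 (v + s * y)).le
    have h7 : deriv (deriv x.d.Φ) (v + s * y) ≤ 5 * deriv x.d.Φ v := by linarith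
    calc |iteratedDeriv (m + 2) x.d.Φ (v + s * y)|
        ≤ x.q.ph.Ct m * deriv (deriv x.d.Φ) (v + s * y) := h4
      _ ≤ |x.q.ph.Ct m| * deriv (deriv x.d.Φ) (v + s * y) :=
        mul_le_mul_of_nonneg_right (le_abs_self _) h6
      _ ≤ |x.q.ph.Ct m| * (5 * deriv x.d.Φ v) := mul_le_mul_of_nonneg_left h7 (abs_nonneg _)
      _ = 5 * |x.q.ph.Ct m| * deriv x.d.Φ v := by ring

/-- **`hF`.** -/
theorem xhF {ph : PhC} (hph : ∀ x : Ix n A T, x.q.ph = ph)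
    (hT : ∀ x : Ix n A T, ∃ e : Cst → ℝ, TB n e x.q) {t : Ix n A T → VV n → ℝ}
    (hN : ∀ x : Ix n A T, ∀ z ∈ x.Z, deriv x.d.Φ (2 * ff x.q x.d (mid z)) ≤
      H961.F.fe (fun x : Ix n A T => x.c) x z * H961.F.fr (fun x : Ix n A T => x.c) x z * t x z)
    (m : ℕ) : ∃ C, ∀ x : Ix n A T, ∀ z ∈ x.Z, ∀ s ∈ Icc (0 : ℝ) 1,
    |xF (m + 1) x (xLm x ((1 / 2 : ℝ) • (z.1 + z.2)) + s * (xL x z.1 + xL x z.2 -
      2 * xL x ((1 / 2 : ℝ) • (z.1 + z.2))))| ≤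
      C * (H961.F.fe (fun x : Ix n A T => x.c) x z *
        H961.F.fr (fun x : Ix n A T => x.c) x z * t x z) := by
  have h0 : 0 ≤ cFm ph.Ct m := by
    match m with
    | 0 => exact zero_le_two
    | m + 1 => exact mul_nonneg (by norm_num) (abs_nonneg _)
  refine ⟨cFm ph.Ct m, fun x z hz s hs => ?_⟩
  obtain ⟨e, he⟩ := hT x
  have h1 := xhF' x he m hz hs
  rw [hph x] at h1
  exact h1.trans (mul_le_mul_of_nonneg_left (hN x z hz) h0)

end Vale.Agent.P088.R2.H968.B1
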